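import Mathlib.LinearAlgebra.Matrix.NonsingularInverse
import Mathlib.LinearAlgebra.Matrix.ToLin
import Mathlib.LinearAlgebra.Matrix.Nondegenerate
import Mathlib.Tactic

/-! Alternating matrices: resolvent identity, restricted update, determinant test, and perfect
matchings from nonsingularity (kernel vectors only). -/

set_option autoImplicit false

namespace Vale.Agent.P305.MM.H81

open Matrix

variable {F : Type*} [Field F] {ι : Type*} [Fintype ι] [DecidableEq ι]

/-- `T` is alternating. -/
def Alt (T : Matrix ι ι F) : Prop := (∀ i j, T j i = -T i j) ∧ ∀ i, T i i = 0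

omit [DecidableEq ι] in
theorem Alt.form {T : Matrix ι ι F} (h : Alt T) (x : ι → F) :
    ∑ a, ∑ b, x a * T a b * x b = 0 := by
  rw [← Finset.sum_product']
  refine Finset.sum_involution (fun p _ => (p.2, p.1)) ?_ ?_ ?_ ?_
  · rintro ⟨a, b⟩ _
    simp only
    rw [h.1 a b]; ring
  · rintro ⟨a, b⟩ _ h1 h2
    simp only [Prod.mk.injEq] at h2
    apply h1
    simp only
    rw [h2.1, h.2 a]; ring
  · rintro ⟨a, b⟩ _; simp
  · rintro ⟨a, b⟩ _; rfl

/-- Twofold resolvent identity. -/
theorem resolvent {T T' N N' K : Matrix ι ι F} (hT : T * N = 1) (hT' : T' * N' = 1)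
    (hK : T' = T + K) : N' = N - N * K * N + N * K * N' * K * N := by
  have hT1 : N * T = 1 := mul_eq_one_comm.mp hT
  have hT2 : N' * T' = 1 := mul_eq_one_comm.mp hT'
  have h1 : N' = N - N' * K * N := by
    have : N' * T' * N = N' * T * N + N' * K * N := by rw [hK]; noncomm_ring
    rw [hT2, one_mul, mul_assoc N' T N, hT, mul_one] at this
    exact eq_sub_of_add_eq this.symm
  have h2 : N' = N - N * K * N' := by
    have : N * (T' * N') = N * T * N' + N * K * N' := by rw [hK]; noncomm_ring
    rw [hT', mul_one, hT1, one_mul] at this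
    exact eq_sub_of_add_eq this.symm
  calc N' = N - N * K * N' := h2
    _ = N - N * K * (N - N' * K * N) := by rw [← h1]
    _ = _ := by noncomm_ring

/-- The inverse of an alternating matrix is alternating. -/
theorem Alt.inv {T N : Matrix ι ι F} (h : Alt T) (hT : T * N = 1) : Alt N := by
  have hT1 : N * T = 1 := mul_eq_one_comm.mp hT
  have hTt : Tᵀ = -T := by
    ext i j
    rw [transpose_apply, neg_apply]
    exact h.1 i j
  have hNt : Nᵀ = -N := by
    have h1 : Nᵀ * Tᵀ = 1 := by rw [← transpose_mul, hT, transpose_one]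
    rw [hTt] at h1
    have h2 : Nᵀ * (-T) * N = N := by rw [h1, one_mul]
    rw [mul_assoc, neg_mul, hT, mul_neg, mul_one] at h2
    rw [← h2, neg_neg, h2]
  have hN : ∀ i j, N j i = -N i j := fun i j => by
    have := congrFun (congrFun hNt i) j
    simpa using this
  refine ⟨hN, fun i => ?_⟩
  have h3 : N * T * N = N := by rw [hT1, one_mul]
  have h4 : N i i = -∑ a, ∑ b, N a i * T a b * N b i := by
    conv_lhs => rw [← h3]
    rw [mul_assoc, mul_apply, ← Finset.sum_neg_distrib]
    refine Finset.sum_congr rfl fun a _ => ?_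
    rw [hN a i, mul_apply, Finset.mul_sum, ← Finset.sum_neg_distrib]
    refine Finset.sum_congr rfl fun b _ => ?_
    ring
  rw [h4, h.form, neg_zero]

/-- Selection of the coordinates `e`. -/
def sel {κ : Type*} (e : κ → ι) : Matrix ι κ F := fun i a => if i = e a then 1 else 0

theorem mul_sel {κ : Type*} {α : Type*} (e : κ → ι) (N : Matrix α ι F) :
    N * (sel e : Matrix ι κ F) = N.submatrix id e := by
  ext i a
  simp [mul_apply, sel]

theorem selT_mul {κ : Type*} {α : Type*} (e : κ → ι) (N : Matrix ι α F) :
    (sel e : Matrix ι κ F)ᵀ * N = N.submatrix e id := by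
  ext i a
  simp [mul_apply, sel]

/-- The change `D` on the index list `e`, as a matrix of full size. -/
def lift {κ : Type*} [Fintype κ] (e : κ → ι) (D : Matrix κ κ F) : Matrix ι ι F :=
  (sel e : Matrix ι κ F) * D * (sel e : Matrix ι κ F)ᵀ

/-- Restricted update: the inverse on the index list `f`, from the old inverse on `f` and the new
inverse on the sub-list `f ∘ g` carrying the change. -/
theorem restricted_update {κ l : Type*} [Fintype κ] [Fintype l] {T T' N N' : Matrix ι ι F}
    (hT : T * N = 1) (hT' : T' * N' = 1) (f : l → ι) (g : κ → l) (D : Matrix κ κ F)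
    (hK : T' = T + lift (f ∘ g) D) :
    N'.submatrix f f = N.submatrix f f -
      (N.submatrix f f).submatrix id g *
        (D - D * (N'.submatrix (f ∘ g) (f ∘ g)) * D) * (N.submatrix f f).submatrix g id := by
  have h := resolvent hT hT' hK
  have h1 : N'.submatrix f f =
      (sel f : Matrix ι l F)ᵀ * N' * (sel f : Matrix ι l F) := by
    rw [selT_mul, mul_sel]; rfl
  have h2 : N'.submatrix (f ∘ g) (f ∘ g) =
      (sel (f ∘ g) : Matrix ι κ F)ᵀ * N' * (sel (f ∘ g) : Matrix ι κ F) := by
    rw [selT_mul, mul_sel]; rfl
  have h3 : (N.submatrix f f).submatrix id g =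
      (sel f : Matrix ι l F)ᵀ * N * (sel (f ∘ g) : Matrix ι κ F) := by
    rw [selT_mul, mul_sel]; rfl
  have h4 : (N.submatrix f f).submatrix g id =
      (sel (f ∘ g) : Matrix ι κ F)ᵀ * N * (sel f : Matrix ι l F) := by
    rw [selT_mul, mul_sel]; rfl
  have h5 : N.submatrix f f =
      (sel f : Matrix ι l F)ᵀ * N * (sel f : Matrix ι l F) := by
    rw [selT_mul, mul_sel]; rfl
  rw [h1, h2, h3, h4, h5]
  conv_lhs => rw [h]
  unfold lift
  simp only [Matrix.mul_add, Matrix.add_mul, Matrix.mul_sub, Matrix.sub_mul, Matrix.mul_assoc]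
  abel

/-- Change of one entry of an alternating matrix. -/
def single2 (u v : ι) (δ : F) : Matrix ι ι F :=
  Matrix.single u v δ - Matrix.single v u δ

theorem mulVec_col {T N : Matrix ι ι F} (hT : T * N = 1) (u i : ι) :
    (T *ᵥ (fun i => N i u)) i = if i = u then 1 else 0 := by
  have := congrFun (congrFun hT i) u
  rw [mul_apply] at this
  rw [mulVec, dotProduct, this, one_apply]

theorem single2_mulVec (u v : ι) (δ : F) (x : ι → F) (i : ι) :
    (single2 u v δ *ᵥ x) i = (if i = u then δ * x v else 0) - (if i = v then δ * x u else 0) := by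
  unfold single2
  rw [sub_mulVec, Pi.sub_apply, single_mulVec, single_mulVec]
  simp [Function.update_apply]

/-- The failing test: `1 - δ N u v = 0` makes the changed matrix singular. -/
theorem test_fail {T N : Matrix ι ι F} (h : Alt T) (hT : T * N = 1) (u v : ι) (δ : F)
    (h0 : 1 - δ * N u v = 0) (N' : Matrix ι ι F) : (T + single2 u v δ) * N' ≠ 1 := by
  intro hu
  have hN := h.inv hT
  have hu' : N' * (T + single2 u v δ) = 1 := mul_eq_one_comm.mp hu
  have hx : (T + single2 u v δ) *ᵥ (fun i => N i u) = 0 := by
    ext i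
    rw [add_mulVec, Pi.add_apply, mulVec_col hT, single2_mulVec, hN.2 u, hN.1 u v]
    by_cases hi : i = u
    · simp only [hi, if_true]
      simp only [mul_zero, ite_self, Pi.zero_apply]
      linear_combination h0
    · simp [hi]
  have hz : (fun i => N i u) = 0 := by
    have : N' *ᵥ ((T + single2 u v δ) *ᵥ (fun i => N i u)) = 0 := by rw [hx, mulVec_zero]
    rwa [mulVec_mulVec, hu', one_mulVec] at this
  have h1 := mulVec_col hT u u
  rw [hz, mulVec_zero] at h1
  simp at h1

/-- The updated inverse after one accepted entry change. -/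
def upd (N : Matrix ι ι F) (u v : ι) (e : F) : Matrix ι ι F :=
  fun i j => N i j - e * (N i u * N v j - N i v * N u j)

/-- The successful test: the changed matrix is nonsingular, with the stated inverse. -/
theorem test_ok {T N : Matrix ι ι F} (h : Alt T) (hT : T * N = 1) (u v : ι) (δ : F)
    (h0 : 1 - δ * N u v ≠ 0) : (T + single2 u v δ) * upd N u v (δ / (1 - δ * N u v)) = 1 := by
  have hN := h.inv hT
  rw [div_eq_mul_inv]
  set c := (1 - δ * N u v)⁻¹ with hc
  have hcc : (1 - δ * N u v) * c = 1 := mul_inv_cancel₀ h0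
  ext i j
  have e2 : ((T + single2 u v δ) * upd N u v (δ * c)) i j =
      ((T + single2 u v δ) *ᵥ (fun a => N a j)) i
      - (δ * c * N v j) * ((T + single2 u v δ) *ᵥ (fun a => N a u)) i
      + (δ * c * N u j) * ((T + single2 u v δ) *ᵥ (fun a => N a v)) i := by
    rw [mul_apply]
    simp only [mulVec, dotProduct, Finset.mul_sum]
    rw [← Finset.sum_sub_distrib, ← Finset.sum_add_distrib]
    refine Finset.sum_congr rfl fun a _ => ?_
    unfold upd
    ring
  rw [e2]
  simp only [add_mulVec, Pi.add_apply, mulVec_col hT, single2_mulVec, hN.2, hN.1 u v, one_apply]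
  by_cases huv : u = v
  · subst huv
    simp only [hN.2] at hcc ⊢
    ring_nf
  by_cases hi : i = u
  · subst hi
    simp only [if_true, huv, if_false]
    linear_combination (-(δ * N v j)) * hcc
  · by_cases hj : i = v
    · subst hj
      simp only [if_true, hi, if_false]
      linear_combination (δ * N u j) * hcc
    · simp [hi, hj]

/-- The entry of the new inverse at the changed place. -/
theorem upd_entry {T N : Matrix ι ι F} (h : Alt T) (hT : T * N = 1) (u v : ι) (δ : F)
    (h0 : 1 - δ * N u v ≠ 0) : upd N u v (δ / (1 - δ * N u v)) u v = N u v / (1 - δ * N u v) := by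
  have hN := h.inv hT
  unfold upd
  simp only [hN.2, div_eq_mul_inv]
  have hcc : (1 - δ * N u v) * (1 - δ * N u v)⁻¹ = 1 := mul_inv_cancel₀ h0
  linear_combination (-N u v) * hcc

/-- `T` is nonsingular on the set `s`. -/
def Nons (T : Matrix ι ι F) (s : Finset ι) : Prop :=
  ∀ y : ι → F, (∀ i, i ∉ s → y i = 0) → (∀ i ∈ s, ∑ j, T i j * y j = 0) → y = 0

theorem Nons.solve {T : Matrix ι ι F} {s : Finset ι} (h : Nons T s) (b : ι → F) :
    ∃ x : ι → F, (∀ i, i ∉ s → x i = 0) ∧ ∀ i ∈ s, ∑ j, T i j * x j = b i := by
  -- the padded matrix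
  let A : Matrix ι ι F := fun i j => if i ∈ s then (if j ∈ s then T i j else 0) else
    if i = j then 1 else 0
  have key : ∀ (y : ι → F) (i : ι), (A *ᵥ y) i =
      if i ∈ s then ∑ j, (if j ∈ s then T i j else 0) * y j else y i := by
    intro y i
    by_cases hi : i ∈ s
    · simp [A, mulVec, dotProduct, hi]
    · simp [A, mulVec, dotProduct, hi]
  have key2 : ∀ (y : ι → F), (∀ i, i ∉ s → y i = 0) → ∀ i,
      ∑ j, (if j ∈ s then T i j else 0) * y j = ∑ j, T i j * y j := by
    intro y hy i
    refine Finset.sum_congr rfl fun j _ => ?_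
    by_cases hj : j ∈ s
    · simp [hj]
    · simp [hj, hy j hj]
  have hinj : Function.Injective A.mulVec := by
    rw [← coe_mulVecLin, ← LinearMap.ker_eq_bot, LinearMap.ker_eq_bot']
    intro y hy
    have hy' : ∀ i, (A *ᵥ y) i = 0 := fun i => congrFun hy i
    have h1 : ∀ i, i ∉ s → y i = 0 := by
      intro i hi
      have := hy' i
      rwa [key, if_neg hi] at this
    refine h y h1 fun i hi => ?_
    have := hy' i
    rwa [key, if_pos hi, key2 y h1] at this
  have hu : IsUnit A := (mulVec_injective_iff_isUnit).mp hinj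
  obtain ⟨x, hx⟩ := (mulVec_surjective_iff_isUnit.mpr hu) (fun i => if i ∈ s then b i else 0)
  have hx' : ∀ i, (A *ᵥ x) i = if i ∈ s then b i else 0 := fun i => congrFun hx i
  have h1 : ∀ i, i ∉ s → x i = 0 := by
    intro i hi
    have := hx' i
    rwa [key, if_neg hi, if_neg hi] at this
  refine ⟨x, h1, fun i hi => ?_⟩
  have := hx' i
  rwa [key, if_pos hi, if_pos hi, key2 x h1] at this

/-- A nonsingular alternating matrix has a perfect matching in its support. -/
theorem Nons.exists_mate {T : Matrix ι ι F} (hT : Alt T) : ∀ (k : ℕ) (s : Finset ι),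
    s.card = k → Nons T s →
    ∃ m : ι → ι, ∀ i ∈ s, m i ∈ s ∧ m (m i) = i ∧ T i (m i) ≠ 0 := by
  intro k
  induction k using Nat.strong_induction_on with
  | _ k ih =>
    intro s hs h
    rcases s.eq_empty_or_nonempty with rfl | ⟨u, hu⟩
    · exact ⟨id, fun i hi => by simp at hi⟩
    obtain ⟨x, hx0, hx⟩ := h.solve (fun i => if i = u then 1 else 0)
    -- x u = 0
    have hxu : x u = 0 := by
      have h1 := hT.form x
      have h2 : ∑ a, ∑ b, x a * T a b * x b = ∑ a, (if a = u then x a else 0) := by
        refine Finset.sum_congr rfl fun a _ => ?_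
        by_cases ha : a ∈ s
        · have := hx a ha
          simp only [mul_assoc]
          rw [← Finset.mul_sum, this]
          split_ifs <;> simp
        · simp [hx0 a ha]
      rw [h2] at h1
      simpa using h1
    have hne : ∑ j, T u j * x j ≠ 0 := by rw [hx u hu]; simp
    obtain ⟨v, -, hv⟩ := Finset.exists_ne_zero_of_sum_ne_zero hne
    have hTv : T u v ≠ 0 := left_ne_zero_of_mul hv
    have hxv : x v ≠ 0 := right_ne_zero_of_mul hv
    have hvs : v ∈ s := by
      by_contra hc
      exact hxv (hx0 v hc)
    have huv : u ≠ v := by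
      rintro rfl
      exact hTv (hT.2 u)
    set s' := (s.erase u).erase v with hs'
    have hcard : s'.card < k := by
      have h1 : s'.card ≤ (s.erase u).card := Finset.card_erase_le
      have h2 : (s.erase u).card < s.card := Finset.card_erase_lt_of_mem hu
      omega
    have hN : Nons T s' := by
      intro y hy0 hy
      have hyu : y u = 0 := hy0 u (by simp [hs'])
      have hyv : y v = 0 := hy0 v (by simp [hs'])
      have hys : ∀ i, i ∉ s → y i = 0 := fun i hi => hy0 i (by simp [hs', hi])
      -- β = 0
      have hβ : ∑ j, T v j * y j = 0 := by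
        have h1 : ∑ i, x i * ∑ j, T i j * y j = x v * ∑ j, T v j * y j := by
          rw [Finset.sum_eq_single v]
          · intro b _ hb
            by_cases hbs : b ∈ s
            · by_cases hbu : b = u
              · subst hbu; rw [hxu, zero_mul]
              · rw [hy b (by simp [hs', hb, hbu, hbs]), mul_zero]
            · rw [hx0 b hbs, zero_mul]
          · intro hc; exact absurd (Finset.mem_univ v) hc
        have h2 : ∑ i, x i * ∑ j, T i j * y j = -∑ j, y j * ∑ i, T j i * x i := by
          simp only [Finset.mul_sum]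
          rw [Finset.sum_comm, ← Finset.sum_neg_distrib]
          refine Finset.sum_congr rfl fun j _ => ?_
          rw [← Finset.sum_neg_distrib]
          refine Finset.sum_congr rfl fun i _ => ?_
          rw [hT.1 j i]; ring
        have h3 : ∑ j, y j * ∑ i, T j i * x i = 0 := by
          refine Finset.sum_eq_zero fun j _ => ?_
          by_cases hj : j ∈ s
          · rw [hx j hj]
            by_cases hju : j = u
            · subst hju; rw [hyu, zero_mul]
            · simp [hju]
          · rw [hys j hj, zero_mul]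
        rw [h3, neg_zero, h1] at h2
        exact (mul_eq_zero.mp h2).resolve_left hxv
      set α := ∑ j, T u j * y j with hα
      have hz : (fun i => y i - α * x i) = 0 := by
        refine h _ (fun i hi => by simp [hys i hi, hx0 i hi]) fun i hi => ?_
        have e : ∑ j, T i j * (y j - α * x j) = ∑ j, T i j * y j - α * ∑ j, T i j * x j := by
          rw [Finset.mul_sum, ← Finset.sum_sub_distrib]
          refine Finset.sum_congr rfl fun j _ => ?_
          ring
        rw [e, hx i hi]
        by_cases hiu : i = u
        · subst hiu; simp [hα]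
        · by_cases hiv : i = v
          · subst hiv; simp [hiu, hβ]
          · rw [hy i (by simp [hs', hiu, hiv, hi])]; simp [hiu]
      have hα0 : α = 0 := by
        have := congrFun hz v
        simp only [hyv, zero_sub, Pi.zero_apply, neg_eq_zero] at this
        exact (mul_eq_zero.mp this).resolve_right hxv
      funext i
      have := congrFun hz i
      simpa [hα0] using this
    obtain ⟨m, hm⟩ := ih s'.card hcard s' rfl hN
    refine ⟨fun i => if i = u then v else if i = v then u else m i, fun i hi => ?_⟩
    have hvu : v ≠ u := huv.symm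
    by_cases hiu : i = u
    · subst hiu
      simp [hvs, hvu, hTv]
    · by_cases hiv : i = v
      · subst hiv
        have : T i u ≠ 0 := by rw [hT.1 u i]; simpa using hTv
        simp [hu, hiu, this]
      · have hi' : i ∈ s' := by simp [hs', hiu, hiv, hi]
        obtain ⟨h1, h2, h3⟩ := hm i hi'
        have h4 : m i ≠ u := by rintro hc; rw [hc] at h1; simp [hs'] at h1
        have h5 : m i ≠ v := by rintro hc; rw [hc] at h1; simp [hs'] at h1
        have h6 : m i ∈ s := by
          simp only [hs', Finset.mem_erase] at h1; exact h1.2.2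
        simp [hiu, hiv, h4, h5, h6, h2, h3]

/-- A nonsingular alternating matrix has a perfect matching in its support. -/
theorem exists_mate {T N : Matrix ι ι F} (h : Alt T) (hT : T * N = 1) :
    ∃ m : ι → ι, ∀ i, m (m i) = i ∧ T i (m i) ≠ 0 := by
  have hT1 : N * T = 1 := mul_eq_one_comm.mp hT
  obtain ⟨m, hm⟩ := Nons.exists_mate h _ (Finset.univ : Finset ι) rfl (by
    intro y _ hy
    have h1 : T *ᵥ y = 0 := by
      funext i
      simpa [mulVec, dotProduct] using hy i (Finset.mem_univ i)
    have h2 : N *ᵥ (T *ᵥ y) = 0 := by rw [h1, mulVec_zero]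
    rwa [mulVec_mulVec, hT1, one_mulVec] at h2)
  exact ⟨m, fun i => ⟨(hm i (Finset.mem_univ i)).2.1, (hm i (Finset.mem_univ i)).2.2⟩⟩

end Vale.Agent.P305.MM.H81
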