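import Mathlib.Tactic
import Mathlib.Data.Finset.Card

/-! A greedily minimised set of pendant edges and graph edges is a maximum matching. -/

set_option autoImplicit false

namespace Vale.Agent.P305.MM.H81

/-- The allowed pairs on `{0, …, 2h-1}`: the pairs of `F` below `h`, the pendant pairs
`(v, h + v)` with `P v`, and all pairs above. -/
def RR (h : ℕ) (P : ℕ → Prop) (F : ℕ → ℕ → Prop) (x y : ℕ) : Prop :=
  (x < h ∧ y < h ∧ F x y) ∨ (x < h ∧ y = h + x ∧ P x) ∨ (y < h ∧ x = h + y ∧ P y) ∨
    (h ≤ x ∧ h ≤ y ∧ x ≠ y)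

/-- A perfect matching of the pairs `R` on `{0, …, 2h-1}`. -/
def PM (h : ℕ) (R : ℕ → ℕ → Prop) : Prop :=
  ∃ m : ℕ → ℕ, ∀ x < 2 * h, m x < 2 * h ∧ m (m x) = x ∧ R x (m x)

theorem PM.mono {h : ℕ} {R R' : ℕ → ℕ → Prop} (hR : ∀ x y, R x y → R' x y) (H : PM h R) :
    PM h R' := by
  obtain ⟨m, hm⟩ := H
  exact ⟨m, fun x hx => ⟨(hm x hx).1, (hm x hx).2.1, hR _ _ (hm x hx).2.2⟩⟩

theorem RR.mono {h : ℕ} {P P' : ℕ → Prop} {F F' : ℕ → ℕ → Prop} (hP : ∀ v, P v → P' v)
    (hF : ∀ u v, F u v → F' u v) (x y : ℕ) (H : RR h P F x y) : RR h P' F' x y := by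
  rcases H with ⟨a, b, c⟩ | ⟨a, b, c⟩ | ⟨a, b, c⟩ | H
  · exact Or.inl ⟨a, b, hF _ _ c⟩
  · exact Or.inr (Or.inl ⟨a, b, hP _ c⟩)
  · exact Or.inr (Or.inr (Or.inl ⟨a, b, hP _ c⟩))
  · exact Or.inr (Or.inr (Or.inr H))

/-- One exchange step. -/
def exch (m : ℕ → ℕ) (a b : ℕ) (x : ℕ) : ℕ :=
  if x = a then b else if x = b then a else if x = m b then x else m x

section

variable {n : ℕ} {A : ℕ → ℕ → Prop}

theorem exch_inv {m : ℕ → ℕ} (hm : ∀ v, m (m v) = v) {a b : ℕ} (hab : a ≠ b) (ha : m a = a)
    (v : ℕ) : exch m a b (exch m a b v) = v := by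
  unfold exch
  by_cases h1 : v = a
  · subst h1; simp [hab.symm]
  by_cases h2 : v = b
  · subst h2; simp [h1]
  by_cases h3 : v = m b
  · simp [← h3, h1, h2]
  have h4 : m v ≠ a := by rintro h; apply h1; rw [← hm v, h, ha]
  have h5 : m v ≠ b := by rintro h; apply h3; rw [← h, hm]
  have h6 : m v ≠ m b := by rintro h; apply h2; rw [← hm v, h, hm]
  simp [h1, h2, h3, h4, h5, h6, hm]

theorem exch_adj (hs : ∀ u v, A u v → A v u) {m : ℕ → ℕ} (hadj : ∀ v, m v ≠ v → A v (m v))
    {a b : ℕ} (hAab : A a b) (v : ℕ) (hv : exch m a b v ≠ v) : A v (exch m a b v) := by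
  unfold exch at hv ⊢
  by_cases h1 : v = a
  · subst h1; simpa using hAab
  by_cases h2 : v = b
  · subst h2; simpa [h1] using hs _ _ hAab
  by_cases h3 : v = m b
  · rw [if_neg h1, if_neg h2, if_pos h3] at hv; exact absurd rfl hv
  rw [if_neg h1, if_neg h2, if_neg h3] at hv ⊢
  exact hadj v hv

/-- Every larger matching can be changed into one that covers everything `φ` covers. -/
theorem exists_covering (hs : ∀ u v, A u v → A v u) (hlt : ∀ u v, A u v → u < n)
    {φ : ℕ → ℕ} (hφ : ∀ v, φ (φ v) = v) (hφA : ∀ v, φ v ≠ v → A v (φ v)) (c : ℕ) :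
    ∀ (k : ℕ) (m : ℕ → ℕ), (∀ v, m (m v) = v) → (∀ v, m v ≠ v → A v (m v)) →
      ((Finset.range n).filter fun v => m v = v).card < c →
      n - ((Finset.range n).filter fun v => φ v ≠ v ∧ m v = φ v).card = k →
      ∃ m' : ℕ → ℕ, (∀ v, m' (m' v) = v) ∧ (∀ v, m' v ≠ v → A v (m' v)) ∧
        ((Finset.range n).filter fun v => m' v = v).card < c ∧ ∀ v, φ v ≠ v → m' v ≠ v := by
  intro k
  induction k using Nat.strong_induction_on with
  | _ k ih =>
    intro m hm hmA hc hk
    by_cases hcov : ∀ v, φ v ≠ v → m v ≠ v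
    · exact ⟨m, hm, hmA, hc, hcov⟩
    push Not at hcov
    obtain ⟨a, ha, hma⟩ := hcov
    set b := φ a with hb
    have hab : a ≠ b := fun h => ha h.symm
    have hφb : φ b = a := by rw [hb, hφ]
    have hAab : A a b := hφA a ha
    have han : a < n := hlt _ _ hAab
    have hbn : b < n := hlt _ _ (hs _ _ hAab)
    have hmb : m b ≠ a := by
      intro h
      have h1 := hm b
      rw [h, hma] at h1
      exact hab h1
    have hmb2 : ∀ x, m x = b → x = m b := fun x hx => by rw [← hx, hm]
    refine ih _ ?_ (exch m a b) (exch_inv hm hab hma) (exch_adj hs hmA hAab) ?_ rfl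
    · -- more agreements
      rw [← hk]
      set S := (Finset.range n).filter fun v => φ v ≠ v ∧ m v = φ v with hS
      set S' := (Finset.range n).filter fun v => φ v ≠ v ∧ exch m a b v = φ v with hS'
      have haS : a ∉ S := by
        simp only [hS, Finset.mem_filter, not_and]
        intro _ _ h
        exact hab (hma.symm.trans h)
      have hsub : insert a S ⊆ S' := by
        intro v hv
        rw [Finset.mem_insert] at hv
        rcases hv with rfl | hv
        · simp only [hS', Finset.mem_filter, Finset.mem_range]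
          exact ⟨han, ha, by simp [exch, hb]⟩
        · simp only [hS, Finset.mem_filter, Finset.mem_range] at hv
          simp only [hS', Finset.mem_filter, Finset.mem_range]
          refine ⟨hv.1, hv.2.1, ?_⟩
          have h1 : v ≠ a := by
            rintro rfl
            exact ha (hv.2.2.symm.trans hma)
          unfold exch
          by_cases h2 : v = b
          · subst h2; simp [h1, hφb]
          have h3 : v ≠ m b := by
            intro h
            have h4 : φ v = b := by rw [← hv.2.2, h, hm]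
            have h5 : v = φ b := by rw [← h4, hφ]
            exact h1 (h5.trans hφb)
          simp [h1, h2, h3, hv.2.2]
      have h1 : S.card + 1 ≤ S'.card := by
        rw [← Finset.card_insert_of_notMem haS]
        exact Finset.card_le_card hsub
      have h2 : S'.card ≤ n := by
        have := Finset.card_filter_le (Finset.range n) (fun v => φ v ≠ v ∧ exch m a b v = φ v)
        rw [Finset.card_range] at this
        exact this
      omega
    · -- not more exposed
      refine lt_of_le_of_lt ?_ hc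
      set S := (Finset.range n).filter fun v => m v = v with hS
      set S' := (Finset.range n).filter fun v => exch m a b v = v with hS'
      have haS : a ∈ S := by simp [hS, han, hma]
      have hsub : S' ⊆ insert (m b) (S.erase a) := by
        intro v hv
        simp only [hS', Finset.mem_filter, Finset.mem_range] at hv
        obtain ⟨hvn, hv⟩ := hv
        simp only [hS, Finset.mem_insert, Finset.mem_erase, Finset.mem_filter, Finset.mem_range]
        unfold exch at hv
        by_cases h1 : v = a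
        · subst h1; simp at hv; exact absurd hv.symm hab
        by_cases h2 : v = b
        · subst h2; simp [h1] at hv; exact absurd hv hab
        by_cases h3 : v = m b
        · exact Or.inl h3
        · simp only [h1, h2, h3, if_false] at hv
          exact Or.inr ⟨h1, hvn, hv⟩
      have h1 : (insert (m b) (S.erase a)).card ≤ (S.erase a).card + 1 := Finset.card_insert_le _ _
      have h2 := Finset.card_erase_of_mem haS
      have h3 : 0 < S.card := Finset.card_pos.mpr ⟨a, haS⟩
      have h4 := Finset.card_le_card hsub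
      omega

/-- The greedily minimised pairs form a maximum matching. -/
theorem max_of_minimal (hs : ∀ u v, A u v → A v u) (hirr : ∀ u, ¬ A u u)
    (hlt : ∀ u v, A u v → u < n) {h : ℕ} (hn : n ≤ h) (P : ℕ → Prop) (F : ℕ → ℕ → Prop)
    (hFA : ∀ u v, F u v → A u v)
    (h1 : PM h (RR h P F))
    (h2 : ∀ w < h, P w → ¬ PM h (RR h (fun v => P v ∧ v ≠ w) A))
    (h3 : ∀ u v, F u v → ¬ PM h (RR h P fun x y => F x y ∧ ¬ (x = u ∧ y = v) ∧
      ¬ (x = v ∧ y = u))) :
    ∃ m : ℕ → ℕ, (∀ v, m (m v) = v) ∧ (∀ v, m v ≠ v → A v (m v)) ∧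
      (∀ m' : ℕ → ℕ, (∀ v, m' (m' v) = v) → (∀ v, m' v ≠ v → A v (m' v)) →
        ((Finset.range n).filter fun v => m v = v).card ≤
          ((Finset.range n).filter fun v => m' v = v).card) ∧
      ∀ u v, F u v ↔ m u = v ∧ u ≠ v := by
  obtain ⟨μ, hμ⟩ := h1
  have hlt' : ∀ u v, A u v → v < n := fun u v H => hlt _ _ (hs _ _ H)
  -- what `μ` does
  have hcase : ∀ x < h, (μ x < h ∧ F x (μ x)) ∨ (μ x = h + x ∧ P x) := by
    intro x hx
    obtain ⟨a1, a2, a3⟩ := hμ x (by omega)
    rcases a3 with ⟨b1, b2, b3⟩ | ⟨b1, b2, b3⟩ | ⟨b1, b2, b3⟩ | ⟨b1, b2, b3⟩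
    · exact Or.inl ⟨b2, b3⟩
    · exact Or.inr ⟨b2, b3⟩
    · omega
    · omega
  have hFμ : ∀ u v, F u v → μ u = v := by
    intro u v huv
    by_contra hne
    apply h3 u v huv
    have hu : u < h := lt_of_lt_of_le (hlt _ _ (hFA _ _ huv)) hn
    have hv : v < h := lt_of_lt_of_le (hlt' _ _ (hFA _ _ huv)) hn
    refine ⟨μ, fun x hx => ⟨(hμ x hx).1, (hμ x hx).2.1, ?_⟩⟩
    rcases (hμ x hx).2.2 with ⟨b1, b2, b3⟩ | b | b | b
    · refine Or.inl ⟨b1, b2, b3, ?_, ?_⟩
      · rintro ⟨rfl, h5⟩; exact hne h5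
      · rintro ⟨rfl, h5⟩
        apply hne
        rw [← h5]
        exact (hμ x hx).2.1
    · exact Or.inr (Or.inl b)
    · exact Or.inr (Or.inr (Or.inl b))
    · exact Or.inr (Or.inr (Or.inr b))
  have hPμ : ∀ w < h, P w → μ w = h + w := by
    intro w hw hP
    by_contra hne
    apply h2 w hw hP
    refine ⟨μ, fun x hx => ⟨(hμ x hx).1, (hμ x hx).2.1, ?_⟩⟩
    rcases (hμ x hx).2.2 with ⟨b1, b2, b3⟩ | ⟨b1, b2, b3⟩ | ⟨b1, b2, b3⟩ | b
    · exact Or.inl ⟨b1, b2, hFA _ _ b3⟩
    · refine Or.inr (Or.inl ⟨b1, b2, b3, ?_⟩)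
      rintro rfl; exact hne b2
    · refine Or.inr (Or.inr (Or.inl ⟨b1, b2, b3, ?_⟩))
      intro h5
      apply hne
      have h6 := (hμ x hx).2.1
      rw [h5] at h6
      rw [h6, b2, h5]
    · exact Or.inr (Or.inr (Or.inr b))
  set φ : ℕ → ℕ := fun v => if v < h ∧ μ v < h then μ v else v with hφdef
  have hφ1 : ∀ v, v < h → μ v < h → φ v = μ v := fun v a b => by simp [hφdef, a, b]
  have hφ2 : ∀ v, ¬ (v < h ∧ μ v < h) → φ v = v := fun v a => by simp only [hφdef, if_neg a]
  have hφinv : ∀ v, φ (φ v) = v := by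
    intro v
    by_cases hv : v < h ∧ μ v < h
    · have h5 := (hμ v (by omega)).2.1
      rw [hφ1 v hv.1 hv.2, hφ1 (μ v) hv.2 (by rw [h5]; exact hv.1), h5]
    · rw [hφ2 v hv, hφ2 v hv]
  have hφF : ∀ v, φ v ≠ v → F v (φ v) := by
    intro v hv
    by_cases hv' : v < h ∧ μ v < h
    · rw [hφ1 v hv'.1 hv'.2]
      rcases hcase v hv'.1 with h5 | h5
      · exact h5.2
      · omega
    · exact absurd (hφ2 v hv') hv
  have hφA : ∀ v, φ v ≠ v → A v (φ v) := fun v hv => hFA _ _ (hφF v hv)
  have hPφ : ∀ v < h, φ v = v → P v := by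
    intro v hv hφv
    rcases hcase v hv with h5 | h5
    · rw [hφ1 v hv h5.1] at hφv
      have h6 := hFA _ _ h5.2
      rw [hφv] at h6
      exact absurd h6 (hirr v)
    · exact h5.2
  refine ⟨φ, hφinv, hφA, ?_, ?_⟩
  · intro m' hm' hm'A
    by_contra hlt2
    push Not at hlt2
    obtain ⟨m, hm, hmA, hc, hcov⟩ := exists_covering hs hlt hφinv hφA
      ((Finset.range n).filter fun v => φ v = v).card _ m' hm' hm'A hlt2 rfl
    -- an exposed vertex of `φ` covered by `m`
    have hex : ∃ w < n, φ w = w ∧ m w ≠ w := by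
      by_contra hno
      push Not at hno
      have : ((Finset.range n).filter fun v => φ v = v).card ≤
          ((Finset.range n).filter fun v => m v = v).card := by
        apply Finset.card_le_card
        intro v hv
        simp only [Finset.mem_filter, Finset.mem_range] at hv ⊢
        exact ⟨hv.1, hno v hv.1 hv.2⟩
      omega
    obtain ⟨w, hwn, hφw, hmw⟩ := hex
    have hwh : w < h := lt_of_lt_of_le hwn hn
    apply h2 w hwh (hPφ w hwh hφw)
    have hmlt : ∀ v, m v ≠ v → m v < h := fun v hv => lt_of_lt_of_le (hlt' _ _ (hmA v hv)) hn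
    have hmne : ∀ v, m v ≠ v → m (m v) ≠ m v := fun v hv h5 => hv (by rw [hm] at h5; exact h5.symm)
    refine ⟨fun x => if x < h then (if m x ≠ x then m x else h + x) else
      (if m (x - h) ≠ x - h then h + m (x - h) else x - h), fun x hx => ?_⟩
    by_cases hxh : x < h
    · by_cases hmx : m x = x
      · have hx1 : φ x = x := by
          by_contra h5; exact hcov x h5 hmx
        have hne : x ≠ w := by rintro rfl; exact hmw hmx
        simp only [hxh, if_true, hmx, ne_eq, not_true_eq_false, if_false]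
        have h5 : ¬ (h + x < h) := by omega
        have h6 : h + x - h = x := by omega
        simp only [h5, if_false, h6, hmx, not_true_eq_false]
        exact ⟨by omega, trivial, Or.inr (Or.inl ⟨hxh, rfl, hPφ x hxh hx1, hne⟩)⟩
      · have h5 := hmlt x hmx
        have h6 := hmne x hmx
        have h7 : ¬ x = m x := fun h8 => hmx h8.symm
        simp only [hxh, if_true, hmx, ne_eq, not_false_eq_true, h5, hm, h7]
        exact ⟨by omega, trivial, Or.inl ⟨hxh, h5, hmA x hmx⟩⟩
    · by_cases hmx : m (x - h) = x - h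
      · have hy : x - h < h := by omega
        have hx1 : φ (x - h) = x - h := by
          by_contra h5; exact hcov _ h5 hmx
        have hne : x - h ≠ w := by
          intro h5; rw [h5] at hmx; exact hmw hmx
        simp only [hxh, if_false, hmx, ne_eq, not_true_eq_false, hy, if_true]
        exact ⟨by omega, by omega, Or.inr (Or.inr (Or.inl ⟨hy, by omega, hPφ _ hy hx1, hne⟩))⟩
      · have h5 := hmlt _ hmx
        have h6 := hmne _ hmx
        have h7 : ¬ (h + m (x - h) < h) := by omega
        have h8 : h + m (x - h) - h = m (x - h) := by omega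
        have h10 : ¬ x - h = m (x - h) := fun h9 => hmx h9.symm
        simp only [hxh, if_false, hmx, ne_eq, not_false_eq_true, if_true, h7, h8, hm, h10]
        refine ⟨by omega, by omega, Or.inr (Or.inr (Or.inr ⟨by omega, by omega, ?_⟩))⟩
        intro h9
        apply hmx
        omega
  · intro u v
    constructor
    · intro huv
      have hu : u < h := lt_of_lt_of_le (hlt _ _ (hFA _ _ huv)) hn
      have hv : v < h := lt_of_lt_of_le (hlt' _ _ (hFA _ _ huv)) hn
      have h5 := hFμ u v huv
      refine ⟨?_, ?_⟩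
      · rw [hφ1 u hu (by rw [h5]; exact hv), h5]
      · rintro rfl; exact hirr u (hFA _ _ huv)
    · rintro ⟨h5, h6⟩
      have h7 := hφF u (by rw [h5]; exact h6.symm)
      rwa [h5] at h7

end

end Vale.Agent.P305.MM.H81
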