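import Vale.Agent.P305.MM.H81.Alg
import Mathlib.Data.Fintype.BigOperators

/-! Random weights: the fresh-coordinate lemma, the insertion chain and the greedy deletion. -/

set_option autoImplicit false

namespace Vale.Agent.P305.MM.H81

open Matrix Finset

/-- If membership of `w` in `B` forces the value of the coordinate `e` from the others, `B` is
small. -/
theorem fresh {F κ S : Type*} [DecidableEq F] [Fintype κ] [DecidableEq κ] [Fintype S]
    [DecidableEq S] (val : S → F) (δ : ℕ)
    (hδ : ∀ x, (univ.filter fun s => val s = x).card ≤ δ) (e : κ) (B : Finset (κ → S))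
    (x₀ : (κ → S) → F) (h0 : ∀ w s, x₀ (Function.update w e s) = x₀ w)
    (hB : ∀ w ∈ B, val (w e) = x₀ w) :
    B.card * Fintype.card S ≤ δ * Fintype.card (κ → S) := by
  classical
  have h1 : (B ×ˢ (univ : Finset S)).card ≤
      ((univ : Finset ((κ → S) × S)).filter fun q => val q.2 = x₀ q.1).card := by
    refine card_le_card_of_injOn (fun q => (Function.update q.1 e q.2, q.1 e)) ?_ ?_
    · rintro ⟨w, s⟩ hw
      simp only [coe_product, Set.mem_prod, mem_coe, mem_univ, and_true] at hw
      simp only [coe_filter, mem_univ, true_and, Set.mem_ofPred_eq, h0]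
      exact hB w hw
    · rintro ⟨w, s⟩ _ ⟨w', s'⟩ _ h
      simp only [Prod.mk.injEq] at h
      obtain ⟨h1, h2⟩ := h
      have h3 : s = s' := by
        have := congrFun h1 e
        simpa using this
      have h4 : w = w' := by
        funext i
        by_cases hi : i = e
        · subst hi; exact h2
        · have := congrFun h1 i
          simpa [hi] using this
      rw [h3, h4]
  have h2 : ((univ : Finset ((κ → S) × S)).filter fun q => val q.2 = x₀ q.1).card ≤
      δ * Fintype.card (κ → S) := by
    rw [card_eq_sum_card_fiberwise (f := Prod.fst) (t := (univ : Finset (κ → S)))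
      (fun _ _ => mem_coe.mpr (mem_univ _))]
    calc _ ≤ ∑ w : κ → S, δ := by
          refine sum_le_sum fun w _ => ?_
          refine le_trans ?_ (hδ (x₀ w))
          refine card_le_card_of_injOn (fun q => q.2) ?_ ?_
          · rintro ⟨w', s⟩ hq
            simp only [coe_filter, mem_filter, mem_univ, true_and, Set.mem_ofPred_eq] at hq ⊢
            rw [← hq.2]; exact hq.1
          · rintro ⟨w', s⟩ hq ⟨w'', s'⟩ hq' h
            simp only [coe_filter, mem_filter, mem_univ, true_and, Set.mem_ofPred_eq] at hq hq' h
            rw [hq.2, hq'.2, h]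
      _ = _ := by rw [sum_const, card_univ, smul_eq_mul, mul_comm]
  rw [card_product, card_univ] at h1
  exact h1.trans h2

end Vale.Agent.P305.MM.H81
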